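import Vale.Agent.P054.T2.H686.Top

set_option autoImplicit false
set_option linter.all false

/-!
# P054 / T2, leaf [ISO]: classes of pairs in isotropic flats, all dimensions in one statement
-/

namespace Vale.Agent.P054.T2.H84

open Vale.Agent.P054I Vale.Agent.P054K Vale.Agent.P054.T2.H686

variable {n : ℕ}

theorem BB_mono {m t : ℕ} {g g' : ℝ} (h : BB m t g) (hg : g ≤ g') : BB m t g' :=
  fun S hS => (h S hS).trans hg

/-- one constant for all dimensions `m ≤ n` with `m ≤ 2σ` -/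
theorem exists_BB (h : ∀ m : ℕ, 2 ≤ m → m < n + 1 → Sex m (DC m) ((m : ℝ) / 2)) (η : ℝ)
    (hη : 0 < η) : ∃ C : ℝ, 1 ≤ C ∧ ∀ t : ℕ, 1 ≤ t → ∀ m σ : ℕ, m ≤ n → m ≤ 2 * σ →
      BB m t (C * (t : ℝ) ^ ((σ : ℝ) + η)) := by
  have h1 : ∀ m : ℕ, ∃ C : ℝ, 1 ≤ C ∧ (m ≤ n → ∀ t : ℕ, 1 ≤ t → ∀ σ : ℕ, m ≤ 2 * σ →
      BB m t (C * (t : ℝ) ^ ((σ : ℝ) + η))) := by
    intro m
    rcases Nat.lt_or_ge m 2 with hm | hm
    · refine ⟨2, by norm_num, fun _ t ht σ hσ => ?_⟩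
      have ht' : (1 : ℝ) ≤ t := by exact_mod_cast ht
      interval_cases m
      · refine BB_mono (BB_zero t) ?_
        have : (1 : ℝ) ≤ (t : ℝ) ^ ((σ : ℝ) + η) := Real.one_le_rpow ht' (by positivity)
        linarith
      · refine BB_mono (BB_one t) ?_
        have hσ1 : (1 : ℝ) ≤ σ := by
          have : 1 ≤ σ := by omega
          exact_mod_cast this
        have : (t : ℝ) ≤ (t : ℝ) ^ ((σ : ℝ) + η) := by
          calc (t : ℝ) = (t : ℝ) ^ (1 : ℝ) := (Real.rpow_one _).symm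
            _ ≤ _ := Real.rpow_le_rpow_of_exponent_le ht' (by linarith)
        linarith
    · rcases Nat.lt_or_ge n m with hmn | hmn
      · exact ⟨1, le_rfl, fun h' => absurd h' (by omega)⟩
      · obtain ⟨C, hC, hB⟩ := BB_of_sex (h m hm (by omega)) η hη
        refine ⟨max C 1, le_max_right _ _, fun _ t ht σ hσ => ?_⟩
        have ht' : (1 : ℝ) ≤ t := by exact_mod_cast ht
        refine BB_mono (hB t ht) ?_
        have hmσ : (m : ℝ) / 2 ≤ σ := by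
          have : (m : ℝ) ≤ 2 * σ := by exact_mod_cast hσ
          linarith
        have h2 : (t : ℝ) ^ ((m : ℝ) / 2 + η) ≤ (t : ℝ) ^ ((σ : ℝ) + η) :=
          Real.rpow_le_rpow_of_exponent_le ht' (by linarith)
        exact mul_le_mul (le_max_left _ _) h2 (by positivity) (by positivity)
  choose C hC1 hC using h1
  refine ⟨∑ m ∈ Finset.range (n + 1), C m, ?_, ?_⟩
  · calc (1 : ℝ) ≤ C 0 := hC1 0
      _ ≤ _ := Finset.single_le_sum (f := C) (fun m _ => by linarith [hC1 m])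
        (Finset.mem_range.2 (by omega))
  · intro t ht m σ hmn hσ
    refine BB_mono (hC m hmn t ht σ hσ) ?_
    refine mul_le_mul_of_nonneg_right ?_ (by positivity)
    exact Finset.single_le_sum (f := C) (fun m _ => by linarith [hC1 m])
        (Finset.mem_range.2 (by omega))

/-- **[ISO]** number of pairs of a class in an isotropic flat of dimension `≤ 2σ` -/
theorem card_iso_le (h : ∀ m : ℕ, 2 ≤ m → m < n + 1 → Sex m (DC m) ((m : ℝ) / 2)) (η : ℝ)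
    (hη : 0 < η) : ∃ C : ℝ, 1 ≤ C ∧ ∀ t : ℕ, 1 ≤ t → ∀ (P : Finset (E n)) (B : E n ≃ₗᵢ[ℝ] E n),
      (dists P).card ≤ t → (P.card : ℝ) ≤ 2 * (t : ℝ) ^ (((n + 1 : ℕ) : ℝ) / 2 + η) →
      ∀ (V : Submodule ℝ ((Fin (n + 1) → ℝ) × (Fin (n + 1) → ℝ))) (σ : ℕ),
        (∀ w ∈ V, Qf w = 0) → Module.finrank ℝ V ≤ 2 * σ → ∀ S : Finset (E n × E n),
        S ⊆ P ×ˢ P → (∀ s ∈ S, ∀ s' ∈ S, zt B s - zt B s' ∈ V) →
        (S.card : ℝ) ≤ C * (t : ℝ) ^ ((σ : ℝ) + η) := by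
  obtain ⟨C, hC, hB⟩ := exists_BB h η hη
  refine ⟨C + 2, by linarith, fun t ht P B hP hPc V σ hQ hV S hS hSV => ?_⟩
  have ht' : (1 : ℝ) ≤ t := by exact_mod_cast ht
  have hpos : 0 ≤ (t : ℝ) ^ ((σ : ℝ) + η) := by positivity
  have hfin : Module.finrank ℝ V ≤ n + 1 := by
    have hinj' : Function.Injective ((toX (n := n)).domRestrict V) := by
      rw [injective_iff_map_eq_zero]
      intro w hw
      exact Subtype.ext (toX_injOn_isotropic hQ w.2 hw)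
    have h1 := LinearMap.finrank_le_finrank_of_injective hinj'
    simpa using h1
  rcases Nat.lt_or_ge (Module.finrank ℝ V) (n + 1) with hlt | hge
  · have h1 := card_isotropic_le P B hP V rfl hQ S hS hSV (hB t ht _ σ (by omega) hV)
    nlinarith
  · -- maximal dimension: the first coordinate is injective
    have hinj : Set.InjOn Prod.fst (S : Set (E n × E n)) := by
      intro s hs s' hs' hss
      have h1 := hSV s hs s' hs'
      have h2 : toX (zt B s - zt B s') = 0 := by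
        rw [map_sub, toX_zt, toX_zt, hss, sub_self]
      exact zt_injective B (sub_eq_zero.1 (toX_injOn_isotropic hQ h1 h2))
    have h1 : S.card ≤ P.card := by
      classical
      rw [← Finset.card_image_of_injOn hinj]
      refine Finset.card_le_card fun x hx => ?_
      obtain ⟨s, hs, rfl⟩ := Finset.mem_image.1 hx
      exact (Finset.mem_product.1 (hS hs)).1
    have h2 : (S.card : ℝ) ≤ P.card := by exact_mod_cast h1
    have h3 : (((n + 1 : ℕ) : ℝ)) / 2 ≤ σ := by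
      have : ((n + 1 : ℕ) : ℝ) ≤ 2 * σ := by exact_mod_cast hge.trans hV
      linarith
    have h4 : (t : ℝ) ^ (((n + 1 : ℕ) : ℝ) / 2 + η) ≤ (t : ℝ) ^ ((σ : ℝ) + η) :=
      Real.rpow_le_rpow_of_exponent_le ht' (by linarith)
    nlinarith

/-- the same for subsets of the image of `P × P` in the coordinates `(ζ, θ)` -/
theorem card_iso_le' (h : ∀ m : ℕ, 2 ≤ m → m < n + 1 → Sex m (DC m) ((m : ℝ) / 2)) (η : ℝ)
    (hη : 0 < η) : ∃ C : ℝ, 1 ≤ C ∧ ∀ t : ℕ, 1 ≤ t → ∀ (P : Finset (E n)) (B : E n ≃ₗᵢ[ℝ] E n),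
      (dists P).card ≤ t → (P.card : ℝ) ≤ 2 * (t : ℝ) ^ (((n + 1 : ℕ) : ℝ) / 2 + η) →
      ∀ (V : Submodule ℝ ((Fin (n + 1) → ℝ) × (Fin (n + 1) → ℝ))) (σ : ℕ),
        (∀ w ∈ V, Qf w = 0) → Module.finrank ℝ V ≤ 2 * σ →
        ∀ S : Finset ((Fin (n + 1) → ℝ) × (Fin (n + 1) → ℝ)),
        (∀ z ∈ S, ∃ s ∈ P ×ˢ P, zt B s = z) → (∀ z ∈ S, ∀ z' ∈ S, z - z' ∈ V) →
        (S.card : ℝ) ≤ C * (t : ℝ) ^ ((σ : ℝ) + η) := by
  classical
  obtain ⟨C, hC, hC2⟩ := card_iso_le h η hη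
  refine ⟨C, hC, fun t ht P B hP hPc V σ hQ hV S hS hSV => ?_⟩
  set S' : Finset (E n × E n) := (P ×ˢ P).filter fun s => zt B s ∈ S with hS'
  have h1 : S'.card = S.card := by
    rw [← Finset.card_image_of_injective S' (zt_injective B)]
    congr 1
    ext z
    constructor
    · intro hz
      obtain ⟨s, hs, rfl⟩ := Finset.mem_image.1 hz
      exact (Finset.mem_filter.1 hs).2
    · intro hz
      obtain ⟨s, hs, rfl⟩ := hS z hz
      exact Finset.mem_image_of_mem _ (Finset.mem_filter.2 ⟨hs, hz⟩)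
  rw [← h1]
  refine hC2 t ht P B hP hPc V σ hQ hV S' (Finset.filter_subset _ _) ?_
  intro s hs s' hs'
  exact hSV _ (Finset.mem_filter.1 hs).2 _ (Finset.mem_filter.1 hs').2

/-- natural-number form -/
theorem card_iso_le_nat (h : ∀ m : ℕ, 2 ≤ m → m < n + 1 → Sex m (DC m) ((m : ℝ) / 2)) (η : ℝ)
    (hη : 0 < η) : ∃ C : ℝ, 1 ≤ C ∧ ∀ t : ℕ, 1 ≤ t → ∀ (P : Finset (E n)) (B : E n ≃ₗᵢ[ℝ] E n),
      (dists P).card ≤ t → (P.card : ℝ) ≤ 2 * (t : ℝ) ^ (((n + 1 : ℕ) : ℝ) / 2 + η) →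
      ∀ (V : Submodule ℝ ((Fin (n + 1) → ℝ) × (Fin (n + 1) → ℝ))) (σ : ℕ),
        (∀ w ∈ V, Qf w = 0) → Module.finrank ℝ V ≤ 2 * σ →
        ∀ S : Finset ((Fin (n + 1) → ℝ) × (Fin (n + 1) → ℝ)),
        (∀ z ∈ S, ∃ s ∈ P ×ˢ P, zt B s = z) → (∀ z ∈ S, ∀ z' ∈ S, z - z' ∈ V) →
        S.card ≤ ⌊C * (t : ℝ) ^ ((σ : ℝ) + η)⌋₊ := by
  obtain ⟨C, hC, hC2⟩ := card_iso_le' h η hη
  refine ⟨C, hC, fun t ht P B hP hPc V σ hQ hV S hS hSV => ?_⟩
  exact Nat.le_floor (hC2 t ht P B hP hPc V σ hQ hV S hS hSV)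

end Vale.Agent.P054.T2.H84
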