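import Vale.Agent.P054.T2.H428.MainC
import Vale.Agent.P054.T2.H83.NumCNat
import Vale.Agent.P054.T2.H84.IsoBound

set_option autoImplicit false
set_option linter.all false

/-!
# P054 / T2, section C: the end (sum of all counts against the number of edges)
-/

namespace Vale.Agent.P054.T2.H84

open MvPolynomial Finset Module
open Vale.Agent.P054.T2.H686 (mu meet Qf Crd leaf E zt dists zt_injective)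
open Vale.Agent.P054.T2.SecC

variable {n : ℕ}

open Classical in
/-- the pairs of points of `P` in the coordinates `(ζ, θ)` -/
noncomputable def Sg (P : Finset (E n)) (B : E n ≃ₗᵢ[ℝ] E n) : Finset (ZZ n) :=
  (P ×ˢ P).image (zt B)

theorem mem_Sg {P : Finset (E n)} {B : E n ≃ₗᵢ[ℝ] E n} {z : ZZ n} :
    z ∈ Sg P B ↔ ∃ s ∈ P ×ˢ P, zt B s = z := by
  classical
  simp only [Sg, Finset.mem_image]

theorem card_Sg (P : Finset (E n)) (B : E n ≃ₗᵢ[ℝ] E n) : (Sg P B).card = P.card ^ 2 := by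
  classical
  unfold Sg
  rw [Finset.card_image_of_injective _ (zt_injective B), Finset.card_product, sq]

open Classical in
/-- **[secC_false]** the sum of section C against the number of edges. `p = |P|`, `A` the good
edges, `E₀` the number of all edges. The per-leaf bounds `hL1`, `hL2`, the number of pair germs
`hX` and the bounds `hb1`, `hb2` for the bad points are inputs. -/
theorem secC_false {κ : Type*} {A : Finset (ZZ n × ZZ n)} {W D σ₁ σ₂ v₁ v₂ : ℕ}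
    (S₁ : Side n A W D σ₁ v₂) (S₂ : Side n (swp A) W D σ₂ v₁)
    (P : Finset (E n)) (B : E n ≃ₗᵢ[ℝ] E n)
    (hE1 : ∀ e ∈ A, e.1 ∈ Sg P B) (hE2 : ∀ e ∈ A, e.2 ∈ Sg P B) (Q : ZZ n × ZZ n → κ)
    (hQ2 : ∀ e ∈ A, ∀ e' ∈ A, Q e = Q e' → S₁.Pr e = S₁.Pr e')
    (hQ1 : ∀ e ∈ A, ∀ e' ∈ A, Q e = Q e' → S₂.Pr e.swap = S₂.Pr e'.swap)
    {N G₁ G₂ t β M a₀ a₁ a₂ a₃ E₀ : ℕ} {Cst C η ε δ : ℝ}
    (hcase : ∀ e ∈ A, S₁.Cnt N G₁ e ∨ S₂.Cnt N G₂ e.swap ∨ BB S₁ S₂ e)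
    -- the inputs of section C
    (hL1 : ∀ s, (((A.filter fun e => e.1 = s ∧ S₁.Cnt N G₁ e).card : ℕ) : ℝ) ≤
      Cst * (D : ℝ) ^ a₂ * (W : ℝ) ^ (n - σ₁) * (((N : ℝ) + 1) ^ σ₁ + G₁))
    (hL2 : ∀ s, ((((swp A).filter fun e => e.1 = s ∧ S₂.Cnt N G₂ e).card : ℕ) : ℝ) ≤
      Cst * (D : ℝ) ^ a₂ * (W : ℝ) ^ (n - σ₂) * (((N : ℝ) + 1) ^ σ₂ + G₂))
    (hX : v₁ = 0 → v₂ = 0 → (((A.image Q).card : ℕ) : ℝ) ≤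
      Cst * (D : ℝ) ^ a₃ * (W : ℝ) ^ (2 * n + 1 - (σ₁ + σ₂)))
    (hb1 : v₁ = 0 → v₂ = 0 → ∀ e ∈ A, ∀ Y ⊆ Sg P B, (∀ s ∈ Y, Bad (S₁.Pr e) (pt s)) →
      Y.card ≤ 2 * (4 * t + 1) ^ σ₁)
    (hb2 : v₁ = 0 → v₂ = 0 → ∀ e ∈ A, ∀ Y ⊆ Sg P B, (∀ s ∈ Y, Bad (S₂.Pr e.swap) (pt s)) →
      Y.card ≤ 2 * (4 * t + 1) ^ σ₂)
    -- the numbers
    (hη : 0 < η) (hε : 0 ≤ ε) (hεη : 2 * ε * (2 * n + 1) ≤ η / 4) (hδ : 2 * δ ≤ η / 4)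
    (hC : 0 ≤ C) (hCst : 0 ≤ Cst) (ht : 1 ≤ t) (hβ : 1 ≤ β) (hM : 1 ≤ M)
    (hct : 16 * (Cst * (9 ^ n + 4 * 5 ^ (2 * n) + C)) < (t : ℝ) ^ (η / 2))
    (hβM : (β : ℝ) ^ M ≤ (t : ℝ) ^ (1 + 2 * ε))
    (hL : (β : ℝ) ^ (a₀ + a₁ * (a₂ + a₃)) ≤ (t : ℝ) ^ δ)
    (hp : (t : ℝ) ^ (((n : ℝ) + 1) / 2 + η) ≤ P.card) (hE₀ : P.card ^ 4 ≤ 4 * (t * E₀))
    (hE' : E₀ ≤ β ^ a₀ * A.card) (hD : D ≤ β ^ a₁) (hW : W ≤ β ^ M)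
    (hN : N + 1 ≤ 9 * t)
    (hG₁ : (G₁ : ℝ) ≤ C * (t : ℝ) ^ ((σ₁ : ℝ) + η))
    (hG₂ : (G₂ : ℝ) ≤ C * (t : ℝ) ^ ((σ₂ : ℝ) + η)) : False := by
  classical
  set DS : ℝ := Cst * (D : ℝ) ^ a₂ * (W : ℝ) ^ (n - σ₁) * (((N : ℝ) + 1) ^ σ₁ + G₁) with hDS
  set DR : ℝ := Cst * (D : ℝ) ^ a₂ * (W : ℝ) ^ (n - σ₂) * (((N : ℝ) + 1) ^ σ₂ + G₂) with hDR
  have hDS0 : 0 ≤ DS := by positivity
  have hDR0 : 0 ≤ DR := by positivity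
  have hX0 : (0 : ℝ) ≤ Cst * (D : ℝ) ^ a₃ * (W : ℝ) ^ (2 * n + 1 - (σ₁ + σ₂)) := by positivity
  have hmain := card_main (κ := κ) S₁ S₂ (Sg P B) hE1 hE2 Q hQ2 hQ1 (N := N) (G₁ := G₁)
    (G₂ := G₂) (Y₁ := ⌊DS⌋₊) (Y₂ := ⌊DR⌋₊)
    (X := ⌊Cst * (D : ℝ) ^ a₃ * (W : ℝ) ^ (2 * n + 1 - (σ₁ + σ₂))⌋₊)
    (b₁ := 2 * (4 * t + 1) ^ σ₁) (b₂ := 2 * (4 * t + 1) ^ σ₂) hcase
    (fun s => Nat.le_floor (hL1 s)) (fun s => Nat.le_floor (hL2 s))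
    (fun h1 h2 => Nat.le_floor (hX h1 h2)) hb1 hb2
  have hSg : ((Sg P B).card : ℝ) = (P.card : ℝ) ^ 2 := by
    rw [card_Sg]; push_cast; ring
  rw [hSg] at hmain
  refine H83.numC_nat (n := n) (η := η) (ε := ε) (δ := δ) (Cst := Cst) (C := C) (t := t) (β := β)
    (M := M) (a₀ := a₀) (a₁ := a₁) (a₂ := a₂) (a₃ := a₃) (N := N) (σ₁ := σ₁) (σ₂ := σ₂)
    (p := P.card) (E₀ := E₀) (E' := A.card) (D := D) (W := W) (DS := ⌊DS⌋₊) (DR := ⌊DR⌋₊)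
    (DB := ((⌊Cst * (D : ℝ) ^ a₃ * (W : ℝ) ^ (2 * n + 1 - (σ₁ + σ₂))⌋₊ *
      ((2 * (4 * t + 1) ^ σ₁) * (2 * (4 * t + 1) ^ σ₂)) : ℕ) : ℝ)) (G₁ := G₁) (G₂ := G₂)
    hη hε hεη hδ hC hCst ht hβ hM hct hβM hL hp ?_ ?_ ?_ ?_ (by positivity) ?_ S₁.hσ S₂.hσ ?_
    hG₁ hG₂ hmain ?_ ?_ ?_
  · exact_mod_cast hE₀
  · exact_mod_cast hE'
  · exact_mod_cast S₁.hD
  · exact_mod_cast hD
  · exact_mod_cast hW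
  · exact_mod_cast hN
  · exact Nat.floor_le hDS0
  · exact Nat.floor_le hDR0
  · push_cast
    refine mul_le_mul_of_nonneg_right (Nat.floor_le hX0) (by positivity)

end Vale.Agent.P054.T2.H84
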