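import Vale.Agent.P054.T2.H428.MainC
import Vale.Agent.P054.T2.H84.SecCEnd

set_option autoImplicit false
set_option linter.all false

/-!
# P054 / T2, section C: the end in natural numbers (the inequality of `MainIneq`)
-/

namespace Vale.Agent.P054.T2.H84

open MvPolynomial Finset Module
open Vale.Agent.P054.T2.H686 (mu meet Qf Crd leaf E zt dists zt_injective)
open Vale.Agent.P054.T2.SecC

variable {n : ℕ}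

/-- natural arithmetic of one leaf -/
theorem leaf_nat {n σ N a₁ a₂ D W Cst b t G : ℕ} (hσ : σ ≤ n) (ht : 1 ≤ t) (hD : D ≤ b ^ a₁)
    (hCst : Cst ≤ b) (h9 : 9 ^ n ≤ b) (hN : N + 1 ≤ 9 * t) :
    Cst * D ^ a₂ * W ^ (n - σ) * ((N + 1) ^ σ + G) ≤
      b ^ (a₁ * a₂ + 2) * (W ^ (n - σ) * (t ^ σ + G)) := by
  have h1 : (N + 1) ^ σ ≤ 9 ^ n * t ^ σ := by
    calc (N + 1) ^ σ ≤ (9 * t) ^ σ := Nat.pow_le_pow_left hN _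
      _ = 9 ^ σ * t ^ σ := mul_pow _ _ _
      _ ≤ 9 ^ n * t ^ σ := Nat.mul_le_mul_right _ (Nat.pow_le_pow_right (by norm_num) hσ)
  have h2 : (N + 1) ^ σ + G ≤ b * (t ^ σ + G) := by
    have h3 : 1 ≤ 9 ^ n := Nat.one_le_pow _ _ (by norm_num)
    have h4 : (N + 1) ^ σ ≤ b * t ^ σ := h1.trans (Nat.mul_le_mul_right _ h9)
    have h5 : G ≤ b * G := Nat.le_mul_of_pos_left _ (by omega)
    calc (N + 1) ^ σ + G ≤ b * t ^ σ + b * G := Nat.add_le_add h4 h5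
      _ = _ := by ring
  calc Cst * D ^ a₂ * W ^ (n - σ) * ((N + 1) ^ σ + G) ≤
      b * (b ^ a₁) ^ a₂ * W ^ (n - σ) * (b * (t ^ σ + G)) := by gcongr
    _ = _ := by rw [← pow_mul]; ring

/-- natural arithmetic of the pairs -/
theorem pair_nat {n σ₁ σ₂ a₁ a₃ D W Cst b t : ℕ} (h₁ : σ₁ ≤ n) (h₂ : σ₂ ≤ n) (ht : 1 ≤ t)
    (hD : D ≤ b ^ a₁) (hCst : Cst ≤ b) (h100 : 4 * 25 ^ n ≤ b) :
    Cst * D ^ a₃ * W ^ (2 * n + 1 - (σ₁ + σ₂)) *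
        ((2 * (4 * t + 1) ^ σ₁) * (2 * (4 * t + 1) ^ σ₂)) ≤
      b ^ (a₁ * a₃ + 2) * (W ^ (2 * n + 1 - (σ₁ + σ₂)) * t ^ (σ₁ + σ₂)) := by
  have h3 : ∀ σ : ℕ, σ ≤ n → (4 * t + 1) ^ σ ≤ 5 ^ n * t ^ σ := by
    intro σ hσ
    calc (4 * t + 1) ^ σ ≤ (5 * t) ^ σ := Nat.pow_le_pow_left (by omega) _
      _ = 5 ^ σ * t ^ σ := mul_pow _ _ _
      _ ≤ 5 ^ n * t ^ σ := Nat.mul_le_mul_right _ (Nat.pow_le_pow_right (by norm_num) hσ)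
  have h4 : (2 * (4 * t + 1) ^ σ₁) * (2 * (4 * t + 1) ^ σ₂) ≤ b * t ^ (σ₁ + σ₂) := by
    calc (2 * (4 * t + 1) ^ σ₁) * (2 * (4 * t + 1) ^ σ₂) ≤
        (2 * (5 ^ n * t ^ σ₁)) * (2 * (5 ^ n * t ^ σ₂)) := by
          gcongr
          · exact h3 σ₁ h₁
          · exact h3 σ₂ h₂
      _ = (4 * 25 ^ n) * t ^ (σ₁ + σ₂) := by
          rw [show (25 : ℕ) = 5 * 5 by norm_num, mul_pow, pow_add]; ring
      _ ≤ _ := Nat.mul_le_mul_right _ h100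
  calc Cst * D ^ a₃ * W ^ (2 * n + 1 - (σ₁ + σ₂)) *
        ((2 * (4 * t + 1) ^ σ₁) * (2 * (4 * t + 1) ^ σ₂)) ≤
      b * (b ^ a₁) ^ a₃ * W ^ (2 * n + 1 - (σ₁ + σ₂)) * (b * t ^ (σ₁ + σ₂)) := by gcongr
    _ = _ := by rw [← pow_mul]; ring

open Classical in
/-- **[secC_ineq]** the sum of section C as the inequality of `MainIneq`; `b` is the step of the
scales. The per-leaf bounds `hL1`, `hL2`, the number of pair germs `hX` and the bounds `hb1`, `hb2`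
for the bad points are inputs. -/
theorem secC_ineq {κ : Type*} {A : Finset (ZZ n × ZZ n)} {W D σ₁ σ₂ v₁ v₂ : ℕ}
    (S₁ : Side n A W D σ₁ v₂) (S₂ : Side n (swp A) W D σ₂ v₁)
    (P : Finset (E n)) (B : E n ≃ₗᵢ[ℝ] E n)
    (hE1 : ∀ e ∈ A, e.1 ∈ Sg P B) (hE2 : ∀ e ∈ A, e.2 ∈ Sg P B) (Q : ZZ n × ZZ n → κ)
    (hQ2 : ∀ e ∈ A, ∀ e' ∈ A, Q e = Q e' → S₁.Pr e = S₁.Pr e')
    (hQ1 : ∀ e ∈ A, ∀ e' ∈ A, Q e = Q e' → S₂.Pr e.swap = S₂.Pr e'.swap)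
    {N G₁ G₂ t b a₀ a₁ a₂ a₃ E₀ Cst : ℕ}
    (hcase : ∀ e ∈ A, S₁.Cnt N G₁ e ∨ S₂.Cnt N G₂ e.swap ∨ BB S₁ S₂ e)
    -- the inputs of section C
    (hL1 : ∀ s, (A.filter fun e => e.1 = s ∧ S₁.Cnt N G₁ e).card ≤
      Cst * D ^ a₂ * W ^ (n - σ₁) * ((N + 1) ^ σ₁ + G₁))
    (hL2 : ∀ s, ((swp A).filter fun e => e.1 = s ∧ S₂.Cnt N G₂ e).card ≤
      Cst * D ^ a₂ * W ^ (n - σ₂) * ((N + 1) ^ σ₂ + G₂))
    (hX : v₁ = 0 → v₂ = 0 → (A.image Q).card ≤ Cst * D ^ a₃ * W ^ (2 * n + 1 - (σ₁ + σ₂)))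
    (hb1 : v₁ = 0 → v₂ = 0 → ∀ e ∈ A, ∀ Y ⊆ Sg P B, (∀ s ∈ Y, Bad (S₁.Pr e) (pt s)) →
      Y.card ≤ 2 * (4 * t + 1) ^ σ₁)
    (hb2 : v₁ = 0 → v₂ = 0 → ∀ e ∈ A, ∀ Y ⊆ Sg P B, (∀ s ∈ Y, Bad (S₂.Pr e.swap) (pt s)) →
      Y.card ≤ 2 * (4 * t + 1) ^ σ₂)
    -- the numbers
    (ht : 1 ≤ t) (hE₀ : P.card ^ 4 ≤ 4 * (t * E₀)) (hE' : E₀ ≤ b ^ a₀ * A.card)
    (hD : D ≤ b ^ a₁) (hCst : Cst ≤ b) (h9 : 9 ^ n ≤ b) (h100 : 4 * 25 ^ n ≤ b)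
    (hN : N + 1 ≤ 9 * t) :
    P.card ^ 4 ≤ t * b ^ (a₀ + a₁ * (a₂ + a₃) + 3) *
      (P.card ^ 2 * (W ^ (n - σ₁) * (t ^ σ₁ + G₁)) +
        P.card ^ 2 * (W ^ (n - σ₂) * (t ^ σ₂ + G₂)) +
        W ^ (2 * n + 1 - (σ₁ + σ₂)) * t ^ (σ₁ + σ₂)) := by
  classical
  have hb1' : 1 ≤ b := by
    have h3 : 1 ≤ 9 ^ n := Nat.one_le_pow _ _ (by norm_num)
    omega
  have hb4 : 4 ≤ b := by
    have h3 : 1 ≤ 25 ^ n := Nat.one_le_pow _ _ (by norm_num)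
    omega
  have hmain := card_main (κ := κ) S₁ S₂ (Sg P B) hE1 hE2 Q hQ2 hQ1 (N := N) (G₁ := G₁)
    (G₂ := G₂) hcase hL1 hL2 hX hb1 hb2
  rw [card_Sg] at hmain
  have hmain' : A.card ≤ P.card ^ 2 * (Cst * D ^ a₂ * W ^ (n - σ₁) * ((N + 1) ^ σ₁ + G₁)) +
      P.card ^ 2 * (Cst * D ^ a₂ * W ^ (n - σ₂) * ((N + 1) ^ σ₂ + G₂)) +
      Cst * D ^ a₃ * W ^ (2 * n + 1 - (σ₁ + σ₂)) *
        ((2 * (4 * t + 1) ^ σ₁) * (2 * (4 * t + 1) ^ σ₂)) := by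
    have := hmain
    exact_mod_cast this
  have h1 := leaf_nat (G := G₁) (W := W) (a₂ := a₂) S₁.hσ ht hD hCst h9 hN
  have h2 := leaf_nat (G := G₂) (W := W) (a₂ := a₂) S₂.hσ ht hD hCst h9 hN
  have h3 := pair_nat (W := W) (a₃ := a₃) S₁.hσ S₂.hσ ht hD hCst h100
  have e1 : b ^ (a₁ * a₂ + 2) ≤ b ^ (a₁ * (a₂ + a₃) + 2) :=
    Nat.pow_le_pow_right hb1' (by nlinarith)
  have e2 : b ^ (a₁ * a₃ + 2) ≤ b ^ (a₁ * (a₂ + a₃) + 2) :=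
    Nat.pow_le_pow_right hb1' (by nlinarith)
  set X₁ := W ^ (n - σ₁) * (t ^ σ₁ + G₁) with hX₁
  set X₂ := W ^ (n - σ₂) * (t ^ σ₂ + G₂) with hX₂
  set X₃ := W ^ (2 * n + 1 - (σ₁ + σ₂)) * t ^ (σ₁ + σ₂) with hX₃
  set bb := b ^ (a₁ * (a₂ + a₃) + 2) with hbb
  have h4 : A.card ≤ bb * (P.card ^ 2 * X₁ + P.card ^ 2 * X₂ + X₃) := by
    calc A.card ≤ P.card ^ 2 * (bb * X₁) + P.card ^ 2 * (bb * X₂) + bb * X₃ := by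
          refine hmain'.trans (Nat.add_le_add (Nat.add_le_add ?_ ?_) ?_)
          · exact Nat.mul_le_mul_left _ (h1.trans (Nat.mul_le_mul_right _ e1))
          · exact Nat.mul_le_mul_left _ (h2.trans (Nat.mul_le_mul_right _ e1))
          · exact h3.trans (Nat.mul_le_mul_right _ e2)
      _ = _ := by ring
  calc P.card ^ 4 ≤ 4 * (t * E₀) := hE₀
    _ ≤ 4 * (t * (b ^ a₀ * A.card)) := by gcongr
    _ ≤ b * (t * (b ^ a₀ * (bb * (P.card ^ 2 * X₁ + P.card ^ 2 * X₂ + X₃)))) := by gcongr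
    _ = t * b ^ (a₀ + a₁ * (a₂ + a₃) + 3) * (P.card ^ 2 * X₁ + P.card ^ 2 * X₂ + X₃) := by
        rw [hbb, show a₀ + a₁ * (a₂ + a₃) + 3 = a₀ + (a₁ * (a₂ + a₃) + 2) + 1 by ring,
          pow_add, pow_add]
        ring

end Vale.Agent.P054.T2.H84
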