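import Vale.Agent.P054.T2.H794.AData
import Vale.Agent.P054.T2.H686.Assembly
import Vale.Agent.P054.T2.H686.Deg0

set_option autoImplicit false
set_option linter.all false

/-!
# P054 / T2: the window of the hats, and the packaging of `AData`

`exists_geo_window`: a nondecreasing function with few values is constant on a geometrically long
interval `[i₀, i₁]` (`C * i₀ + C ≤ i₁`) whose end is small against the total length
(`C * i₁ + C ≤ Wg`), the length `Wg` depending on `C` and the number of values only.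
-/

namespace Vale.Agent.P054.T2.H84

open Finset MvPolynomial Module
open Vale.Agent.P054.T2.H307
open Vale.Agent.P054.T2.H580 (Par Vw Vw_mono)
open Vale.Agent.P054.T2.H794 (AData Cw)
open Vale.Agent.P054.T2.H686 (Qf Crd)

/-- the numbers `g 0 = 0`, `g (j + 1) = g j + (C g j + C)` -/
def geoSeq (C : ℕ) : ℕ → ℕ
  | 0 => 0
  | j + 1 => geoSeq C j + (C * geoSeq C j + C)

theorem geoSeq_mono (C : ℕ) : Monotone (geoSeq C) :=
  monotone_nat_of_le_succ fun j => Nat.le_add_right _ _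

/-- the length of the tight window -/
def geoLen (N C : ℕ) : ℕ := geoSeq C (N + 2)

theorem exists_geo_window (N C : ℕ) (f : ℕ → ℕ)
    (hf : ∀ i j, i ≤ j → j ≤ geoLen N C → f i ≤ f j) (hN : f (geoLen N C) ≤ N) :
    ∃ i₀ i₁, C * i₀ + C ≤ i₁ ∧ C * i₁ + C ≤ geoLen N C ∧ i₀ ≤ i₁ ∧ i₁ ≤ geoLen N C ∧
      ∀ i, i₀ ≤ i → i ≤ i₁ → f i = f i₀ := by
  have key : ∃ j, j ≤ N ∧ f (geoSeq C (j + 1)) = f (geoSeq C j) := by
    by_contra hcon
    push Not at hcon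
    have h1 : ∀ j, j ≤ N + 1 → j ≤ f (geoSeq C j) := by
      intro j
      induction j with
      | zero => intro _; exact Nat.zero_le _
      | succ j ih =>
        intro hj
        have h2 := ih (by omega)
        have h3 := hcon j (by omega)
        have h4 : f (geoSeq C j) ≤ f (geoSeq C (j + 1)) :=
          hf _ _ (geoSeq_mono C (Nat.le_succ j)) (geoSeq_mono C (by omega))
        omega
    have h5 := h1 (N + 1) le_rfl
    have h6 : f (geoSeq C (N + 1)) ≤ f (geoLen N C) :=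
      hf _ _ (geoSeq_mono C (by omega)) le_rfl
    omega
  obtain ⟨j, hj, hfj⟩ := key
  have hle : geoSeq C (j + 2) ≤ geoLen N C := geoSeq_mono C (by omega)
  have h1 : geoSeq C (j + 1) = geoSeq C j + (C * geoSeq C j + C) := rfl
  have h2 : geoSeq C (j + 2) = geoSeq C (j + 1) + (C * geoSeq C (j + 1) + C) := rfl
  refine ⟨geoSeq C j, geoSeq C (j + 1), by omega, by omega, by omega, by omega, ?_⟩
  intro i hi1 hi2
  have h3 := hf _ _ hi1 (by omega)
  have h4 := hf _ _ hi2 (by omega)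
  omega

section fam

variable {n : ℕ} {β b K' : ℕ} {E' : Finset (Ed n ℝ)} {v : FI × ℕ → ℕ}

theorem mono_rtd {σ : Type*} : Monotone (restrictTotalDegree σ ℝ) := by
  intro i j hij g hg
  rw [mem_restrictTotalDegree] at hg ⊢
  exact hg.trans hij

theorem mono_Vw {σ : Type*} (w : σ → ℕ) : Monotone (Vw ℝ w) := fun _ _ h => Vw_mono _ h

/-- the uniform values increase with the level -/
theorem val_mono (hU : IsUnif (cA n ℝ b) (JA K') β E' v) (hE : E'.Nonempty) (hβ : 1 < β)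
    (hb : 1 ≤ b) {f : FI} (hf : f ∈ famA K') {i j : ℕ} (hij : i ≤ j) (hj : j ≤ K') :
    v (f, i) ≤ v (f, j) := by
  rcases mem_famA.1 hf with rfl | rfl | rfl | ⟨k, hk, h⟩
  · exact hU.famL_mono hE hβ mono_rtd hb (isFam_F b K') hij hj
  · exact hU.famL_mono hE hβ mono_rtd hb (isFam_L1 b K') hij hj
  · exact hU.famL_mono hE hβ mono_rtd hb (isFam_L2 b K') hij hj
  · rcases h with rfl | rfl | rfl | rfl | rfl | rfl | rfl | rfl
    · exact hU.famL_mono hE hβ (mono_Vw _) hb (isFam_H1 b K' k hk) hij hj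
    · exact hU.famL_mono hE hβ (mono_Vw _) hb (isFam_H2 b K' k hk) hij hj
    · exact hU.famL_mono hE hβ (mono_Vw _) hb (isFam_V1 b K' k hk) hij hj
    · exact hU.famL_mono hE hβ (mono_Vw _) hb (isFam_V2 b K' k hk) hij hj
    · exact hU.famL_mono hE hβ (mono_Vw _) hb (isFam_T b K' k hk) hij hj
    · exact hU.famL_mono hE hβ (mono_Vw _) hb (isFam_TV b K' k hk) hij hj
    · exact hU.famL_mono hE hβ (mono_Vw _) hb (isFam_TS b K' k hk) hij hj
    · exact hU.famL_mono hE hβ (mono_Vw _) hb (isFam_TR b K' k hk) hij hj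

theorem val_le (hU : IsUnif (cA n ℝ b) (JA K') β E' v) (hE : E'.Nonempty) {f : FI}
    (hf : f ∈ famA K') {i : ℕ} (hi : i ≤ K') : v (f, i) ≤ NN n := by
  have h0 : (f, i) ∈ JA K' := by
    rw [mem_JA]
    exact ⟨hf, hi⟩
  obtain ⟨e, he⟩ := hE
  have h1 := hU.le (f, i) h0 E' (Finset.Subset.refl _) e he
  have h2 := cA_le (K := ℝ) (n := n) b (f, i) E' e
  exact le_trans h1 h2

/-- the families with the first level `k` -/
def hats (k : ℕ) : Finset FI :=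
  {FI.H1 k, FI.H2 k, FI.V1 k, FI.V2 k, FI.T k, FI.TV k, FI.TS k, FI.TR k}

theorem mem_hats {k : ℕ} {f : FI} : f ∈ hats k ↔ f = FI.H1 k ∨ f = FI.H2 k ∨ f = FI.V1 k ∨
    f = FI.V2 k ∨ f = FI.T k ∨ f = FI.TV k ∨ f = FI.TS k ∨ f = FI.TR k := by
  simp [hats]

theorem hats_card_le (k : ℕ) : (hats k).card ≤ 8 := by
  unfold hats
  refine (Finset.card_insert_le _ _).trans (Nat.succ_le_succ ?_)
  refine (Finset.card_insert_le _ _).trans (Nat.succ_le_succ ?_)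
  refine (Finset.card_insert_le _ _).trans (Nat.succ_le_succ ?_)
  refine (Finset.card_insert_le _ _).trans (Nat.succ_le_succ ?_)
  refine (Finset.card_insert_le _ _).trans (Nat.succ_le_succ ?_)
  refine (Finset.card_insert_le _ _).trans (Nat.succ_le_succ ?_)
  refine (Finset.card_insert_le _ _).trans (Nat.succ_le_succ ?_)
  rw [Finset.card_singleton]

theorem hats_subset {k K' : ℕ} (hk : k ≤ K') : hats k ⊆ famA K' := by
  intro f hf
  exact mem_famA.2 (Or.inr (Or.inr (Or.inr ⟨k, hk, mem_hats.1 hf⟩)))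

/-- the length of the tight window needed for the hats (depends on `n`, `C` only) -/
def WG (n C : ℕ) : ℕ := geoLen (8 * NN n) C

/-- **the window of the hats** -/
theorem exists_hat_window (hU : IsUnif (cA n ℝ b) (JA K') β E' v) (hE : E'.Nonempty)
    (hβ : 1 < β) (hb : 1 ≤ b) (C : ℕ) {k₀ : ℕ} (hk : k₀ + WG n C ≤ K') :
    ∃ i₀ i₁, C * i₀ + C ≤ i₁ ∧ C * i₁ + C ≤ WG n C ∧ i₀ ≤ i₁ ∧ i₁ ≤ WG n C ∧
      ∀ f ∈ hats k₀, Cw v f i₀ i₁ := by
  have hk₀ : k₀ ≤ K' := (Nat.le_add_right _ _).trans hk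
  have hW : WG n C ≤ K' := (Nat.le_add_left _ _).trans hk
  obtain ⟨i₀, i₁, h1, h2, h3, h4, h5⟩ := exists_geo_window (8 * NN n) C
    (fun i => ∑ f ∈ hats k₀, v (f, i))
    (fun i j hij hj => Finset.sum_le_sum fun f hf =>
      val_mono hU hE hβ hb (hats_subset hk₀ hf) hij (hj.trans hW))
    (by
      calc ∑ f ∈ hats k₀, v (f, geoLen (8 * NN n) C) ≤ ∑ _f ∈ hats k₀, NN n :=
            Finset.sum_le_sum fun f hf => val_le hU hE (hats_subset hk₀ hf) hW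
        _ = (hats k₀).card * NN n := by rw [Finset.sum_const, smul_eq_mul]
        _ ≤ 8 * NN n := Nat.mul_le_mul_right _ (hats_card_le _))
  refine ⟨i₀, i₁, h1, h2, h3, h4, fun f hf i hi1 hi2 => ?_⟩
  have h6 := h5 i hi1 hi2
  have h7 := (Finset.sum_eq_sum_iff_of_le (fun g hg =>
    val_mono hU hE hβ hb (hats_subset hk₀ hg) hi1 ((hi2.trans h4).trans hW))).1 h6.symm
  exact (h7 f hf).symm

end fam

section pack

variable {n k β C₁ L K₀ q C k₀ : ℕ} {E' : Finset (Ed n ℝ)} {v : FI × ℕ → ℕ}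

/-- **packaging of `AData`** -/
theorem exists_AData (par : Par (NN n) k β C₁ L K₀ q (JA K₀).card)
    (unif : IsUnif (cA n ℝ (β ^ L)) (JA K₀) β E' v) (ne : E'.Nonempty)
    (adj : ∀ e ∈ E', e.1.1 0 ≠ e.2.1 0 ∧ Qf (e.1 - e.2) = 0) (hk : k₀ + WG n C ≤ K₀)
    (hwin : ∀ k, k₀ ≤ k → k < k₀ + (WG n C + 1) →
      v (FI.F, k) = v (FI.F, k₀) ∧ v (FI.L1, k) = v (FI.L1, k₀) ∧
      v (FI.L2, k) = v (FI.L2, k₀) ∧
      (2 * n + 1) - v (FI.F, k) = (n - v (FI.L1, k)) + (n - v (FI.L2, k)))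
    (pos1 : v (FI.L1, k₀) < n) (pos2 : v (FI.L2, k₀) < n) :
    ∃ i₀ i₁, AData n k β C₁ L K₀ q C k₀ i₀ i₁ (WG n C) E' v := by
  have hb := par.b_gt_one
  obtain ⟨i₀, i₁, h1, h2, h3, h4, h5⟩ := exists_hat_window unif ne par.beta_gt_one hb.le C hk
  refine ⟨i₀, i₁, ⟨par, unif, ne, adj, hk, ?_, ?_, ?_, ?_, pos1, pos2, ?_, ?_, ?_, ?_, ?_, ?_,
    ?_, ?_, h1, h2⟩⟩
  · intro i hi1 hi2; exact (hwin i hi1 (by omega)).1
  · intro i hi1 hi2; exact (hwin i hi1 (by omega)).2.1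
  · intro i hi1 hi2; exact (hwin i hi1 (by omega)).2.2.1
  · exact (hwin k₀ le_rfl (by omega)).2.2.2
  all_goals exact h5 _ (mem_hats.2 (by simp))

end pack

section deg

open Vale.Agent.P054.T2.H686 (Ez ABDeg E mu)

variable {n : ℕ} {β L K₀ : ℕ} {E' : Finset (Ed n ℝ)} {v : FI × ℕ → ℕ}

theorem val_L1_le {b : ℕ} (hU : IsUnif (cA n ℝ b) (JA K₀) β E' v) (hE : E'.Nonempty) {i : ℕ}
    (hi : i ≤ K₀) : v (FI.L1, i) ≤ n := by
  have h0 : (FI.L1, i) ∈ JA K₀ := by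
    rw [mem_JA]
    exact ⟨mem_famA.2 (Or.inr (Or.inl rfl)), hi⟩
  obtain ⟨e, he⟩ := hE
  have h1 := hU.le (FI.L1, i) h0 E' (Finset.Subset.refl _) e he
  have h2 : cA n ℝ b (FI.L1, i) E' e ≤ Fintype.card (Fin n) := gfL_le _ _ _ _ _ _ _
  rw [Fintype.card_fin] at h2
  exact le_trans h1 h2

theorem val_L2_le {b : ℕ} (hU : IsUnif (cA n ℝ b) (JA K₀) β E' v) (hE : E'.Nonempty) {i : ℕ}
    (hi : i ≤ K₀) : v (FI.L2, i) ≤ n := by
  have h0 : (FI.L2, i) ∈ JA K₀ := by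
    rw [mem_JA]
    exact ⟨mem_famA.2 (Or.inr (Or.inr (Or.inl rfl))), hi⟩
  obtain ⟨e, he⟩ := hE
  have h1 := hU.le (FI.L2, i) h0 E' (Finset.Subset.refl _) e he
  have h2 : cA n ℝ b (FI.L2, i) E' e ≤ Fintype.card (Fin n) := gfL_le _ _ _ _ _ _ _
  rw [Fintype.card_fin] at h2
  exact le_trans h1 h2

/-- **the degenerate alternative** -/
theorem abDeg_of_full {P : Finset (E n)} {B : E n ≃ₗᵢ[ℝ] E n} {a₀ a₁ Wmax k₀ : ℕ}
    (hβ : 1 < β) (hU : IsUnif (cA n ℝ (β ^ L)) (JA K₀) β E' v) (hE : E'.Nonempty)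
    (hsub : E' ⊆ Ez P B β) (hcard : (Ez P B β).card ≤ (β ^ L) ^ a₀ * E'.card)
    (hk : k₀ ≤ K₀) (hW : (β ^ L) ^ k₀ ≤ Wmax) (hn : (n + 1) ^ n ≤ (β ^ L) ^ a₁)
    (hfull : v (FI.L1, k₀) = n ∨ v (FI.L2, k₀) = n) : ABDeg n P B β (β ^ L) a₀ a₁ Wmax := by
  classical
  have hb : 1 ≤ β ^ L := Nat.one_le_pow _ _ (by omega)
  refine ⟨E', (β ^ L) ^ k₀, hsub, hcard, hW, ?_⟩
  rcases hfull with hfull | hfull
  · refine Or.inl fun s => ⟨(fib Prod.fst E' s).image xL, ?_, ?_⟩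
    · refine (H686.card_leaf_of_full hβ hb hE hU Prod.fst FI.L1 (isFam_L1 _ _) hk hfull s).trans ?_
      exact Nat.mul_le_mul_right _ hn
    · intro e he hes
      exact Finset.mem_image.2 ⟨e, mem_fib.2 ⟨he, hes⟩, rfl⟩
  · refine Or.inr fun s => ⟨(fib Prod.snd E' s).image xL, ?_, ?_⟩
    · refine (H686.card_leaf_of_full hβ hb hE hU Prod.snd FI.L2 (isFam_L2 _ _) hk hfull s).trans ?_
      exact Nat.mul_le_mul_right _ hn
    · intro e he hes
      exact Finset.mem_image.2 ⟨e, mem_fib.2 ⟨he, hes⟩, rfl⟩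

/-- **output of section A**: a uniform set with a tight window gives the degenerate case or
`AData`. -/
theorem deg_or_AData {P : Finset (E n)} {B : E n ≃ₗᵢ[ℝ] E n} {k C₁ q C a₀ a₁ Wmax k₀ : ℕ}
    (par : Par (NN n) k β C₁ L K₀ q (JA K₀).card)
    (unif : IsUnif (cA n ℝ (β ^ L)) (JA K₀) β E' v) (ne : E'.Nonempty)
    (hsub : E' ⊆ Ez P B β) (hcard : (Ez P B β).card ≤ (β ^ L) ^ a₀ * E'.card)
    (adj : ∀ e ∈ E', e.1.1 0 ≠ e.2.1 0 ∧ Qf (e.1 - e.2) = 0) (hk : k₀ + WG n C ≤ K₀)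
    (hwin : ∀ k, k₀ ≤ k → k < k₀ + (WG n C + 1) →
      v (FI.F, k) = v (FI.F, k₀) ∧ v (FI.L1, k) = v (FI.L1, k₀) ∧
      v (FI.L2, k) = v (FI.L2, k₀) ∧
      (2 * n + 1) - v (FI.F, k) = (n - v (FI.L1, k)) + (n - v (FI.L2, k)))
    (hW : (β ^ L) ^ k₀ ≤ Wmax) (hn : (n + 1) ^ n ≤ (β ^ L) ^ a₁) :
    ABDeg n P B β (β ^ L) a₀ a₁ Wmax ∨
      ∃ i₀ i₁, AData n k β C₁ L K₀ q C k₀ i₀ i₁ (WG n C) E' v := by
  have hk₀ : k₀ ≤ K₀ := (Nat.le_add_right _ _).trans hk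
  have h1 := val_L1_le unif ne hk₀
  have h2 := val_L2_le unif ne hk₀
  rcases h1.eq_or_lt with h1 | h1
  · exact Or.inl (abDeg_of_full par.beta_gt_one unif ne hsub hcard hk₀ hW hn (Or.inl h1))
  rcases h2.eq_or_lt with h2 | h2
  · exact Or.inl (abDeg_of_full par.beta_gt_one unif ne hsub hcard hk₀ hW hn (Or.inr h2))
  exact Or.inr (exists_AData par unif ne adj hk hwin h1 h2)

end deg

end Vale.Agent.P054.T2.H84
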