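import Vale.Agent.P054.T2.H428.SecC
import Vale.Agent.P054.T2.H431.Bad
import Vale.Agent.P054.T2.H455.C3
import Vale.Agent.P054.T2.H269.GermSum
import Vale.Agent.P054.T2.H84.SecCEnd

set_option autoImplicit false
set_option linter.all false

/-!
# P054 / T2, section C, leaf [C10]: number of bad points for the prime of a side
-/

namespace Vale.Agent.P054.T2.H84

open MvPolynomial Finset Module
open Vale.Agent.P054.T2.H686 (mu meet Qf Crd leaf E zt dists zt_injective)
open Vale.Agent.P054.T2.H441 (hF rkY)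
open Vale.Agent.P054.T2.SecC

/-- the Hilbert function of a contraction, total degree -/
theorem hF_comap_rename_le {K : Type*} [Field K] {α β : Type*} [Finite α] [Finite β]
    (f : α → β) (P : Ideal (MvPolynomial β K)) (n : ℕ) :
    hF (P.comap (rename (R := K) f)) n ≤ hF P n := by
  classical
  set Q := P.comap (rename (R := K) f) with hQ
  have hfin : Module.Finite K ((restrictTotalDegree β K n).map
      (Ideal.Quotient.mkₐ K P).toLinearMap) := by
    have : Module.Finite K (restrictTotalDegree β K n) := inferInstance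
    exact Module.Finite.map _ _
  let φ : (MvPolynomial α K ⧸ Q) →ₗ[K] (MvPolynomial β K ⧸ P) :=
    (Ideal.quotientMapₐ P (rename (R := K) f) (fun _ hx => hx)).toLinearMap
  have hφ : Function.Injective φ := by
    rw [injective_iff_map_eq_zero]
    intro x hx
    obtain ⟨G, rfl⟩ := Ideal.Quotient.mk_surjective x
    have h0 : Ideal.Quotient.mk P (rename f G) = 0 := hx
    rw [Ideal.Quotient.eq_zero_iff_mem] at h0
    exact Ideal.Quotient.eq_zero_iff_mem.2 h0
  have h1 : ((restrictTotalDegree α K n).map (Ideal.Quotient.mkₐ K Q).toLinearMap).map φ ≤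
      (restrictTotalDegree β K n).map (Ideal.Quotient.mkₐ K P).toLinearMap := by
    rintro _ ⟨_, ⟨G, hG, rfl⟩, rfl⟩
    refine ⟨rename f G, ?_, rfl⟩
    rw [SetLike.mem_coe, mem_restrictTotalDegree] at hG ⊢
    exact (totalDegree_rename_le _ _).trans hG
  have h2 := Submodule.finrank_mono h1
  rw [(Submodule.equivMapOfInjective φ hφ _).finrank_eq.symm] at h2
  exact h2

variable {n : ℕ} {A : Finset (ZZ n × ZZ n)} {W D σ v : ℕ} (S : Side n A W D σ v)

theorem card_HL (n : ℕ) : Fintype.card (HL n) = n + 2 * (n + 1) := by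
  simp [HL, ZI]
  ring

/-- upper bound for the Hilbert function of the prime of `r` -/
theorem hF_Pr_le {e : ZZ n × ZZ n} (he : e ∈ A) :
    ∃ C : ℕ, ∀ m, hF (S.Pr e) m ≤ C * (m + 1) ^ (σ + v) := by
  obtain ⟨C, hC⟩ := H269.hF_germ_le (hx e.1 e.2) (S.F e.1) (S.hzero e he) (S.hind e he)
  have hcard : Fintype.card (HL n) - ((n - σ) + (2 * (n + 1) - v)) = σ + v := by
    rw [card_HL]
    have h1 := S.hσ
    have h2 := S.hv
    omega
  rw [hcard] at hC
  exact ⟨C, fun m => (hF_comap_rename_le _ _ _).trans (hC m)⟩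

theorem Pr_ne_top {e : ZZ n × ZZ n} (he : e ∈ A) : S.Pr e ≠ ⊤ := by
  intro h
  have h1 : (1 : MvPolynomial (ZI n) ℝ) ∈ S.Pr e := by rw [h]; trivial
  have h2 := S.eval_eq_zero_of_mem_Pr he h1
  rw [map_one] at h2
  exact one_ne_zero h2

/-- (FD) for a set of points of `P × P` -/
theorem sep_Sg (P : Finset (E n)) (B : E n ≃ₗᵢ[ℝ] E n) (Y : Finset (ZZ n)) (hY : Y ⊆ Sg P B) :
    H455.Sep (fun s : ZZ n => pt s) (4 * (dists P).card) Y := by
  classical
  intro z hz
  obtain ⟨r, hr, hzr⟩ := mem_Sg.1 (hY hz)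
  obtain ⟨f, h1, h2, h3⟩ := H686.exists_sep P B r hr
  refine ⟨f, h1, ?_, ?_⟩
  · rw [← hzr]
    exact h2
  · intro z' hz' hne
    obtain ⟨r', hr', hzr'⟩ := mem_Sg.1 (hY hz')
    rw [← hzr']
    refine h3 r' hr' ?_
    rintro rfl
    exact hne (hzr'.symm.trans hzr)

/-- **[C10]** the number of bad points, `v = 0` -/
theorem card_bad_side (hv : v = 0) (P : Finset (E n)) (B : E n ≃ₗᵢ[ℝ] E n) {t : ℕ}
    (ht : (dists P).card ≤ t) {e : ZZ n × ZZ n} (he : e ∈ A) (Y : Finset (ZZ n))
    (hY : Y ⊆ Sg P B) (hbad : ∀ s ∈ Y, Bad (S.Pr e) (pt s)) :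
    Y.card ≤ 2 * (4 * t + 1) ^ σ := by
  classical
  subst hv
  obtain ⟨C, hC⟩ := hF_Pr_le S he
  have hsep : H455.Sep (fun s : ZZ n => pt s) (4 * t) Y :=
    (sep_Sg P B Y hY).mono_deg (Nat.mul_le_mul_left _ ht)
  have hcard : (Y.image fun s : ZZ n => pt s).card = Y.card :=
    Finset.card_image_of_injective _ pt_injective
  have h1 := H431.card_bad_le (S.Pr e) (Δ := C) (σ := σ) hC
    (H431.one_le_hF (S.Pr e) (Pr_ne_top S he)) (Y.image fun s : ZZ n => pt s) (D := 4 * t)
    (by rw [hsep.rkY_eq, hcard]) (by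
      intro p hp
      obtain ⟨s, hs, rfl⟩ := Finset.mem_image.1 hp
      exact hbad s hs)
  rwa [hcard] at h1

end Vale.Agent.P054.T2.H84
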