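import Vale.Agent.P054.T2.H686.Assembly
import Vale.Agent.P054.T2.H84.BadSide
import Vale.Agent.P054.H25.BaseN

set_option autoImplicit false
set_option linter.all false

/-!
# P054 / T2: everything except `MainAB n`
-/

namespace Vale.Agent.P054.T2.H84

open Finset MvPolynomial Module
open Vale.Agent.P054I Vale.Agent.P054K
open Vale.Agent.P054.T2.SecC
open Vale.Agent.P054.T2.H686 (MainAB MainIneq BadCount Sz_eq_Sg mainIneq_of_AB sex_of_main
  lower_of_main)

/-- `BadCount` is proved -/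
theorem badCount (n : ℕ) : BadCount n := by
  intro A W D σ S P B t ht e he Y hY hbad
  rw [Sz_eq_Sg] at hY
  exact card_bad_side S rfl P B ht he Y hY hbad

theorem mainIneq_of_mainAB {n : ℕ} (hn : 2 ≤ n) (hAB : MainAB n) : MainIneq n :=
  mainIneq_of_AB hn (badCount n) hAB

/-- **the theorem, from `MainAB n` for `n ≥ 3`** -/
theorem lower_of_mainAB (hAB : ∀ n, 3 ≤ n → MainAB n) (d : ℕ) (hd : 2 ≤ d) (ε : ℝ) (hε : 0 < ε) :
    ∃ c : ℝ, 0 < c ∧ ∀ N : ℕ, 2 ≤ N → c * (N : ℝ) ^ (2 / (d : ℝ) - ε) ≤ ((H686.g d N : ℕ) : ℝ) :=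
  lower_of_main sex_dc2 sex_dc3 (fun n hn => mainIneq_of_mainAB (by omega) (hAB n hn)) d hd ε hε

end Vale.Agent.P054.T2.H84
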