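import Vale.Agent.P054.T2.H84.SecCIneq
import Vale.Agent.P054.T2.H84.BadSide
import Vale.Agent.P054.T2.H269.SideCount
import Vale.Agent.P054.T2.H819.ZPairs
import Vale.Agent.P054.T2.H930.GlueB1
import Vale.Agent.P054.T2.H580.Hat

set_option autoImplicit false
set_option linter.all false

/-!
# P054 / T2, section C: the inequality of `MainIneq` from the two sides, the pair system and the
per-edge cases. No counting input is left.
-/

namespace Vale.Agent.P054.T2.H84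

open MvPolynomial Finset Module
open Vale.Agent.P054.T2.H686 (mu meet Qf Crd leaf E zt dists zt_injective)
open Vale.Agent.P054.T2.H441 (hF rkY)
open Vale.Agent.P054.T2.H580 (Vw hilbF wh)
open Vale.Agent.P054.T2.H930 (germ grad edgePt Pt sysZ hatPt ptc)
open Vale.Agent.P054.T2.SecC

variable {n : ℕ}

/-- the `(s, r)`-gradients of the second block of `sysZ` are independent -/
theorem sysZ_second_linInd {k : Type*} [Field k] {A B C' : Type*} [Fintype A] [DecidableEq A]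
    [Fintype B] [DecidableEq B] [Fintype C'] [DecidableEq C'] {c₀ c₁ c₂ : ℕ}
    (f : Fin c₀ → MvPolynomial A k)
    (h : Fin c₁ → MvPolynomial (A ⊕ B) k) (h' : Fin c₂ → MvPolynomial (A ⊕ C') k)
    (p : A ⊕ (B ⊕ C') → k)
    (hh : LinearIndependent k (fun i => fun b =>
      eval (p ∘ Sum.map id Sum.inl) (pderiv (Sum.inr b) (h i))))
    (hh' : LinearIndependent k (fun i => fun b =>
      eval (p ∘ Sum.map id Sum.inr) (pderiv (Sum.inr b) (h' i)))) :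
    LinearIndependent k (fun i : Fin (c₁ + c₂) => fun b : B ⊕ C' =>
      eval p (pderiv (Sum.inr b) (sysZ f h h' (Fin.natAdd c₀ i)))) := by
  have injl : Function.Injective (Sum.map id Sum.inl : A ⊕ B → A ⊕ (B ⊕ C')) :=
    Function.Injective.sumMap Function.injective_id Sum.inl_injective
  have injr : Function.Injective (Sum.map id Sum.inr : A ⊕ C' → A ⊕ (B ⊕ C')) :=
    Function.Injective.sumMap Function.injective_id Sum.inr_injective
  refine H930.linInd_append (A := B) (B := C') _ ?_ ?_ ?_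
  · intro i b
    rw [H930.sysZ_h, H930.pderiv_rename_notMem, map_zero]
    rintro ⟨x, hx⟩
    rcases x with x | x <;> simp at hx
  · have : (fun i : Fin c₁ => fun b => eval p (pderiv (Sum.inr (Sum.inl b))
        (sysZ f h h' (Fin.natAdd c₀ (Fin.castAdd c₂ i)))))
        = fun i => fun b => eval (p ∘ Sum.map id Sum.inl) (pderiv (Sum.inr b) (h i)) := by
      funext i b
      rw [H930.sysZ_h]
      have := pderiv_rename injl (Sum.inr b) (h i)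
      have e : (Sum.map id Sum.inl (Sum.inr b) : A ⊕ (B ⊕ C')) = Sum.inr (Sum.inl b) := rfl
      rw [e] at this
      rw [this, eval_rename]
    rw [this]
    exact hh
  · have : (fun i : Fin c₂ => fun b => eval p (pderiv (Sum.inr (Sum.inr b))
        (sysZ f h h' (Fin.natAdd c₀ (Fin.natAdd c₁ i)))))
        = fun i => fun b => eval (p ∘ Sum.map id Sum.inr) (pderiv (Sum.inr b) (h' i)) := by
      funext i b
      rw [H930.sysZ_h']
      have := pderiv_rename injr (Sum.inr b) (h' i)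
      have e : (Sum.map id Sum.inr (Sum.inr b) : A ⊕ (B ⊕ C')) = Sum.inr (Sum.inr b) := rfl
      rw [e] at this
      rw [this, eval_rename]
    rw [this]
    exact hh'

/-- the constant of section C -/
def Cfull (n : ℕ) : ℕ := H269.Cs n + H819.Cz (Fintype.card (Crd n)) (Fintype.card (ZI n ⊕ ZI n))

/-- **section C, complete**: `F` is the system of the pairs (`c₀` equations in `g`, `l` equations
with independent `(s, r)`-gradients). -/
theorem secC_block {A : Finset (ZZ n × ZZ n)} {W D σ₁ σ₂ v₁ v₂ c₀ l : ℕ}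
    (S₁ : Side n A W D σ₁ v₂) (S₂ : Side n (swp A) W D σ₂ v₁)
    (P : Finset (E n)) (B : E n ≃ₗᵢ[ℝ] E n)
    (hE1 : ∀ e ∈ A, e.1 ∈ Sg P B) (hE2 : ∀ e ∈ A, e.2 ∈ Sg P B)
    -- the pair system
    (F : Fin (c₀ + l) → MvPolynomial (Crd n ⊕ (ZI n ⊕ ZI n)) ℝ)
    (f : Fin c₀ → MvPolynomial (Crd n) ℝ)
    (hF : ∀ i, F (Fin.castAdd l i) = rename Sum.inl (f i)) (hfdeg : ∀ i, (f i).totalDegree ≤ W)
    (hFdeg : ∀ j, F (Fin.natAdd c₀ j) ∈ Vw ℝ (H819.wb (Crd n) (ZI n ⊕ ZI n) W) (D * W))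
    (h0 : ∀ e ∈ A, ∀ i, eval (edgePt e.1 e.2) (F i) = 0)
    (hf : ∀ e ∈ A, LinearIndependent ℝ (fun i => grad (meet e.1 e.2) (f i)))
    (hh : ∀ e ∈ A, LinearIndependent ℝ (fun i : Fin l => fun b =>
      eval (edgePt e.1 e.2) (pderiv (Sum.inr b) (F (Fin.natAdd c₀ i)))))
    (hlv : l + (v₁ + v₂) = 4 * (n + 1)) (hc₀ : c₀ + (σ₁ + σ₂) ≤ 2 * n + 1)
    (hQ2 : ∀ e ∈ A, ∀ e' ∈ A, germ (edgePt e.1 e.2) F = germ (edgePt e'.1 e'.2) F →
      S₁.Pr e = S₁.Pr e')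
    (hQ1 : ∀ e ∈ A, ∀ e' ∈ A, germ (edgePt e.1 e.2) F = germ (edgePt e'.1 e'.2) F →
      S₂.Pr e.swap = S₂.Pr e'.swap)
    {N G₁ G₂ t b a₀ a₁ E₀ : ℕ}
    (hcase : ∀ e ∈ A, S₁.Cnt N G₁ e ∨ S₂.Cnt N G₂ e.swap ∨ BB S₁ S₂ e)
    -- the numbers
    (ht : 1 ≤ t) (hPt : (dists P).card ≤ t) (hE₀ : P.card ^ 4 ≤ 4 * (t * E₀))
    (hE' : E₀ ≤ b ^ a₀ * A.card) (hD : D ≤ b ^ a₁) (hCst : Cfull n ≤ b) (h9 : 9 ^ n ≤ b)
    (h100 : 4 * 25 ^ n ≤ b) (hN : N + 1 ≤ 9 * t) :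
    P.card ^ 4 ≤ t * b ^ (a₀ + a₁ * (6 * (n + 1)) + 3) *
      (P.card ^ 2 * (W ^ (n - σ₁) * (t ^ σ₁ + G₁)) +
        P.card ^ 2 * (W ^ (n - σ₂) * (t ^ σ₂ + G₂)) +
        W ^ (2 * n + 1 - (σ₁ + σ₂)) * t ^ (σ₁ + σ₂)) := by
  classical
  have hexp : a₁ * (6 * (n + 1)) = a₁ * (2 * (n + 1) + 4 * (n + 1)) := by ring
  rw [hexp]
  refine secC_ineq (a₂ := 2 * (n + 1)) (a₃ := 4 * (n + 1)) (Cst := Cfull n) S₁ S₂ P B hE1 hE2
    (fun e => germ (edgePt e.1 e.2) F) hQ2 hQ1 hcase ?_ ?_ ?_ ?_ ?_ ht hE₀ hE' hD hCst h9 h100 hN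
  · intro s
    refine (H269.side_count S₁ s N G₁).trans ?_
    have : H269.Cs n ≤ Cfull n := Nat.le_add_right _ _
    gcongr
  · intro s
    refine (H269.side_count S₂ s N G₂).trans ?_
    have : H269.Cs n ≤ Cfull n := Nat.le_add_right _ _
    gcongr
  · intro hv1 hv2
    have hcardB : Fintype.card (ZI n ⊕ ZI n) = 4 * (n + 1) := by
      simp [ZI]
      ring
    have h1 := H819.card_block_primes (A := Crd n) (B := ZI n ⊕ ZI n)
      (fun e : ZZ n × ZZ n => edgePt e.1 e.2) A (v := v₁ + v₂) S₁.hW S₁.hD F f hF hfdeg hFdeg h0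
      hf hh (by rw [hcardB]; exact hlv)
    have hl : l = 4 * (n + 1) := by omega
    refine h1.trans ?_
    have h2 : H819.Cz (Fintype.card (Crd n)) (Fintype.card (ZI n ⊕ ZI n)) ≤ Cfull n :=
      Nat.le_add_left _ _
    have h3 : W ^ c₀ ≤ W ^ (2 * n + 1 - (σ₁ + σ₂)) := Nat.pow_le_pow_right S₁.hW (by omega)
    rw [hl]
    calc H819.Cz (Fintype.card (Crd n)) (Fintype.card (ZI n ⊕ ZI n)) *
          (W ^ c₀ * D ^ (4 * (n + 1))) ≤
        Cfull n * (W ^ (2 * n + 1 - (σ₁ + σ₂)) * D ^ (4 * (n + 1))) := by gcongr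
      _ = _ := by ring
  · intro _ hv2 e he Y hY hbad
    exact card_bad_side S₁ hv2 P B hPt he Y hY hbad
  · intro hv1 _ e he Y hY hbad
    exact card_bad_side S₂ hv1 P B hPt (mem_swp.2 (by simpa using he)) Y hY hbad

/-- the same with the pair system `sysZ f h h'` of the two hats -/
theorem secC_sysZ {A : Finset (ZZ n × ZZ n)} {W D σ₁ σ₂ v₁ v₂ c₀ c₁ c₂ : ℕ}
    (S₁ : Side n A W D σ₁ v₂) (S₂ : Side n (swp A) W D σ₂ v₁)
    (P : Finset (E n)) (B : E n ≃ₗᵢ[ℝ] E n)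
    (hE1 : ∀ e ∈ A, e.1 ∈ Sg P B) (hE2 : ∀ e ∈ A, e.2 ∈ Sg P B)
    -- the pair system
    (f : Fin c₀ → MvPolynomial (Crd n) ℝ) (h : Fin c₁ → MvPolynomial (Crd n ⊕ Pt n) ℝ)
    (h' : Fin c₂ → MvPolynomial (Crd n ⊕ Pt n) ℝ) (hfdeg : ∀ i, (f i).totalDegree ≤ W)
    (hdeg : ∀ i, h i ∈ Vw ℝ (wh (Crd n) (Pt n) W) (D * W))
    (hdeg' : ∀ i, h' i ∈ Vw ℝ (wh (Crd n) (Pt n) W) (D * W))
    (f_zero : ∀ i, ∀ e ∈ A, eval (meet e.1 e.2) (f i) = 0)
    (h_zero : ∀ i, ∀ e ∈ A, eval (hatPt e.1 (mu e.1 e.2)) (h i) = 0)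
    (h'_zero : ∀ i, ∀ e ∈ A, eval (hatPt e.2 (mu e.2 e.1)) (h' i) = 0)
    (f_ind : ∀ e ∈ A, LinearIndependent ℝ (fun i => grad (meet e.1 e.2) (f i)))
    (h_ind : ∀ e ∈ A, LinearIndependent ℝ (fun i => fun b =>
      eval (hatPt e.1 (mu e.1 e.2)) (pderiv (Sum.inr b) (h i))))
    (h'_ind : ∀ e ∈ A, LinearIndependent ℝ (fun i => fun b =>
      eval (hatPt e.2 (mu e.2 e.1)) (pderiv (Sum.inr b) (h' i))))
    (hlv : c₁ + c₂ + (v₁ + v₂) = 4 * (n + 1)) (hc₀ : c₀ + (σ₁ + σ₂) ≤ 2 * n + 1)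
    (hQ2 : ∀ e ∈ A, ∀ e' ∈ A, germ (edgePt e.1 e.2) (sysZ f h h') =
      germ (edgePt e'.1 e'.2) (sysZ f h h') → S₁.Pr e = S₁.Pr e')
    (hQ1 : ∀ e ∈ A, ∀ e' ∈ A, germ (edgePt e.1 e.2) (sysZ f h h') =
      germ (edgePt e'.1 e'.2) (sysZ f h h') → S₂.Pr e.swap = S₂.Pr e'.swap)
    {N G₁ G₂ t b a₀ a₁ E₀ : ℕ}
    (hcase : ∀ e ∈ A, S₁.Cnt N G₁ e ∨ S₂.Cnt N G₂ e.swap ∨ BB S₁ S₂ e)
    -- the numbers
    (ht : 1 ≤ t) (hPt : (dists P).card ≤ t) (hE₀ : P.card ^ 4 ≤ 4 * (t * E₀))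
    (hE' : E₀ ≤ b ^ a₀ * A.card) (hD : D ≤ b ^ a₁) (hCst : Cfull n ≤ b) (h9 : 9 ^ n ≤ b)
    (h100 : 4 * 25 ^ n ≤ b) (hN : N + 1 ≤ 9 * t) :
    P.card ^ 4 ≤ t * b ^ (a₀ + a₁ * (6 * (n + 1)) + 3) *
      (P.card ^ 2 * (W ^ (n - σ₁) * (t ^ σ₁ + G₁)) +
        P.card ^ 2 * (W ^ (n - σ₂) * (t ^ σ₂ + G₂)) +
        W ^ (2 * n + 1 - (σ₁ + σ₂)) * t ^ (σ₁ + σ₂)) := by
  classical
  have hq : ∀ e ∈ A, e.1.1 0 ≠ e.2.1 0 ∧ Qf (e.1 - e.2) = 0 := fun e he => ⟨S₁.hne e he, S₁.hQ e he⟩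
  have hren : ∀ (g : ZI n → ZI n ⊕ ZI n) (hg : Function.Injective g) (w : MvPolynomial (Crd n ⊕ Pt n) ℝ),
      w ∈ Vw ℝ (wh (Crd n) (Pt n) W) (D * W) →
      rename (Sum.map id g) w ∈ Vw ℝ (H819.wb (Crd n) (ZI n ⊕ ZI n) W) (D * W) := by
    intro g hg w hw
    rw [H580.mem_Vw] at hw ⊢
    intro s hs
    rw [support_rename_of_injective (Function.injective_id.sumMap hg), Finset.mem_image] at hs
    obtain ⟨u, hu, rfl⟩ := hs
    refine le_trans (le_of_eq ?_) (hw u hu)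
    rw [Finsupp.weight_apply, Finsupp.weight_apply,
      Finsupp.sum_mapDomain_index (by simp) (by intros; simp [add_mul])]
    refine Finsupp.sum_congr fun x _ => ?_
    rcases x with x | x <;> simp [H819.wb, wh]
  refine secC_block (c₀ := c₀) (l := c₁ + c₂) S₁ S₂ P B hE1 hE2 (sysZ f h h') f ?_ hfdeg ?_ ?_ f_ind
    ?_ hlv hc₀ hQ2 hQ1 hcase ht hPt hE₀ hE' hD hCst h9 h100 hN
  · intro i
    exact Fin.append_left _ _ i
  · intro j
    have h1 : sysZ f h h' (Fin.natAdd c₀ j) =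
        Fin.append (fun i => rename (Sum.map id Sum.inl) (h i))
          (fun i => rename (Sum.map id Sum.inr) (h' i)) j := Fin.append_right _ _ j
    rw [h1]
    refine Fin.addCases (fun i => ?_) (fun i => ?_) j
    · rw [Fin.append_left]
      exact hren _ Sum.inl_injective _ (hdeg i)
    · rw [Fin.append_right]
      exact hren _ Sum.inr_injective _ (hdeg' i)
  · intro e he i
    exact H930.edge_eval f h h' e.1 e.2 (hq e he).1 (hq e he).2 (fun i => f_zero i e he)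
      (fun i => h_zero i e he) (fun i => h'_zero i e he) i
  · intro e he
    refine sysZ_second_linInd f h h' (edgePt e.1 e.2) ?_ ?_
    · have := h_ind e he
      rw [← H930.edgePt_comp_j1 e.1 e.2] at this
      exact this
    · have := h'_ind e he
      rw [← H930.edgePt_comp_j2 (hq e he).1 (hq e he).2] at this
      exact this

end Vale.Agent.P054.T2.H84
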